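import Vale.Agent.P284Z.F.RL
import Vale.Agent.P284Z.Z.Mean
import Vale.Agent.P284Z.S.Three

/-! P284Z, block F: relaxed limits of plurisubharmonic functions; positivity almost everywhere. -/

open scoped Topology ENNReal
open Filter Set Metric MeasureTheory

noncomputable section

namespace Vale.Agent.P284Z

open Z

variable {W : Type} [NormedAddCommGroup W] [NormedSpace ℂ W] {U : Set W} {P : W → ℝ}

theorem usc_circInt {u : W → ℝ} (h : UpperSemicontinuousOn u U) {b : ℝ} (hb : ∀ z ∈ U, b ≤ u z)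
    {z w : W} (hw : ∀ ζ : ℂ, ‖ζ‖ ≤ 1 → z + ζ • w ∈ U) :
    CircleIntegrable (fun ζ : ℂ => u (z + ζ • w)) 0 1 := by
  have hm : ∀ ζ ∈ sphere (0 : ℂ) 1, z + ζ • w ∈ U := fun ζ hζ =>
    hw ζ (mem_sphere_zero_iff_norm.1 hζ).le
  exact S.circInt (T := -b) (h.comp (by fun_prop) hm) fun ζ hζ => by simpa using hb _ (hm ζ hζ)

/-- if `log P` is plurisubharmonic, so is `P` -/
theorem LPsh.bp0 (h : LPsh P U) (hU : IsOpen U) : BP P U := by
  refine ⟨hU, ⟨lpsh_usc h, fun z w hw => ?_⟩, 0, h.1⟩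
  have hi := usc_circInt (lpsh_usc h) h.1 hw
  refine le_of_forall_pos_le_add fun ε hε => ?_
  set t := max (P z) ε with ht
  have ht0 : 0 < t := lt_max_of_lt_right hε
  have e0 : Real.exp (- -Real.log ε) = ε := by rw [neg_neg, Real.exp_log hε]
  have h1 := (h.2 (-Real.log ε)).2 z w hw
  have h2 : Real.circleAverage (fun ζ : ℂ => lg (-Real.log ε) (P (z + ζ • w))) 0 1 ≤
      Real.circleAverage (fun ζ : ℂ => (Real.log t + ε / t - 1) + t⁻¹ • P (z + ζ • w)) 0 1 := by
    refine Real.circleAverage_mono ((h.bp hU _).circInt hw)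
      ((circleIntegrable_const _ _ _).add hi.const_smul) fun ζ hζ => ?_
    have h0 := h.1 _ (hw ζ (le_of_eq (by simpa using hζ)))
    have hm : 0 < max (P (z + ζ • w)) ε := lt_max_of_lt_right hε
    have h3 := Real.log_le_sub_one_of_pos (div_pos hm ht0)
    rw [Real.log_div hm.ne' ht0.ne'] at h3
    have h4 : max (P (z + ζ • w)) ε / t ≤ (P (z + ζ • w) + ε) / t :=
      div_le_div_of_nonneg_right (max_le (by linarith) (by linarith)) ht0.le
    rw [lg, e0, smul_eq_mul, inv_mul_eq_div]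
    rw [add_div] at h4
    linarith
  rw [Real.circleAverage_fun_add (f₂ := fun ζ : ℂ => t⁻¹ • P (z + ζ • w))
    (circleIntegrable_const _ _ _) hi.const_smul,
    Real.circleAverage_const, Real.circleAverage_fun_smul, smul_eq_mul, inv_mul_eq_div] at h2
  have h3 : lg (-Real.log ε) (P z) = Real.log t := by rw [lg, e0]
  simp only [h3] at h1
  have h4 : 1 ≤ (Real.circleAverage (fun ζ : ℂ => P (z + ζ • w)) 0 1 + ε) / t := by
    rw [add_div]
    linarith
  exact (le_max_left _ _).trans ((one_le_div ht0).1 h4)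

theorem RAt.comp_mono {Y : Type} [TopologicalSpace Y] {g : ℕ → Y → ℝ} {c : ℝ} {y : Y}
    (h : RAt g c y) {f : ℝ → ℝ} (hf : Monotone f) (hc : ContinuousAt f c) :
    RAt (fun j z => f (g j z)) (f c) y := by
  intro t
  refine ⟨fun ht => ?_, fun ht V hV => ?_⟩
  · obtain ⟨s, hs1, hs2⟩ := ((hc.eventually (gt_mem_nhds ht)).filter_mono
      (nhdsWithin_le_nhds (s := Ioi c))).and self_mem_nhdsWithin |>.exists
    exact ((h s).1 hs2).mono fun q hq => (hf hq.le).trans_lt hs1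
  · obtain ⟨s, hs1, hs2⟩ := ((hc.eventually (lt_mem_nhds ht)).filter_mono
      (nhdsWithin_le_nhds (s := Iio c))).and self_mem_nhdsWithin |>.exists
    exact ((h s).2 hs2 V hV).mono fun j hj => hj.imp fun x hx => ⟨hx.1, hs1.trans_le (hf hx.2.le)⟩

theorem lg_mono (T : ℝ) : Monotone (lg T) := fun _ _ h =>
  Real.log_le_log (lt_max_of_lt_right (Real.exp_pos _)) (max_le_max_right _ h)

theorem lg_cont (T : ℝ) : Continuous (lg T) :=
  (continuous_id.max continuous_const).log fun _ => (lt_max_of_lt_right (Real.exp_pos _)).ne'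

theorem log_le_lg (T : ℝ) {x : ℝ} (hx : 0 < x) : Real.log x ≤ lg T x :=
  Real.log_le_log hx (le_max_left _ _)

variable [FiniteDimensional ℂ W]

/-- the relaxed limit of plurisubharmonic functions is plurisubharmonic -/
theorem psh_of_rat {g : ℕ → W → ℝ} {G : W → ℝ} (hU : IsOpen U) (hg : ∀ j, Psh (g j) U) {b : ℝ}
    (hb : ∀ j, ∀ z ∈ U, b ≤ g j z) (h : ∀ z ∈ U, RAt g (G z) z) : Psh G U := by
  have : ProperSpace W := proper
  refine ⟨usc_of_rat h, fun z w hw => ?_⟩
  have hz : z ∈ U := by simpa using hw 0 (by simp)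
  have hGb : ∀ z ∈ U, b ≤ G z := fun z hz => (h z hz).ge_of fun j => hb j z hz
  obtain ⟨x, hx, hlim⟩ := (h z hz).recover
  obtain ⟨δ, hδ, hsub⟩ := (disc_compact z w).exists_cthickening_subset_open hU
    (by rintro _ ⟨ζ, hζ, rfl⟩; exact hw ζ (mem_closedBall_zero_iff.1 hζ))
  obtain ⟨L, hL, hL'⟩ := bdd_of_rat ((disc_compact z w).cthickening (r := δ))
    fun y hy => h y (hsub hy)
  have hev : ∀ᶠ j in atTop, ∀ ζ : ℂ, ‖ζ‖ ≤ 1 →
      x j + ζ • w ∈ cthickening δ ((fun ζ : ℂ => z + ζ • w) '' closedBall 0 1) := by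
    filter_upwards [hx.eventually (closedBall_mem_nhds z hδ)] with j hj ζ hζ
    refine mem_cthickening_of_dist_le _ (z + ζ • w) δ _
      ⟨ζ, mem_closedBall_zero_iff.2 hζ, rfl⟩ ?_
    rw [dist_add_right]
    exact hj
  have hGi := usc_circInt (usc_of_rat h) hGb hw
  have hn : ∀ θ : ℝ, ‖circleMap 0 1 θ‖ ≤ 1 := fun θ => by simp
  have hT : Tendsto (fun j => ∫ θ in (0 : ℝ)..2 * Real.pi,
      max (g j (x j + circleMap 0 1 θ • w)) (G (z + circleMap 0 1 θ • w))) atTop
      (𝓝 (∫ θ in (0 : ℝ)..2 * Real.pi, G (z + circleMap 0 1 θ • w))) := by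
    refine intervalIntegral.tendsto_integral_filter_of_dominated_convergence
      (fun _ => max |b| |L|) ?_ ?_ intervalIntegrable_const (Eventually.of_forall fun θ _ => ?_)
    · filter_upwards [hev] with j hj
      have h1 := usc_circInt (hg j).1 (hb j) fun ζ hζ => hsub (hj ζ hζ)
      exact (h1.def'.sup hGi.def').aestronglyMeasurable
    · filter_upwards [hev, hL'] with j hj hj'
      refine Eventually.of_forall fun θ _ => ?_
      have q1 := hj' _ (hj _ (hn θ))
      have q2 := hL _ (self_subset_cthickening _ ⟨_, mem_closedBall_zero_iff.2 (hn θ), rfl⟩)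
      have q3 := hGb _ (hw _ (hn θ))
      rw [Real.norm_eq_abs, abs_le]
      refine ⟨le_trans ?_ (q3.trans (le_max_right _ _)), (max_le q1 q2).trans
        ((le_abs_self L).trans (le_max_right _ _))⟩
      have := neg_abs_le b
      have := le_max_left |b| |L|
      linarith
    · exact ((h _ (hw _ (hn θ))).ub (hx.add_const _)).tendsto_max
  refine le_of_tendsto_of_tendsto hlim (hT.const_smul (2 * Real.pi)⁻¹) ?_
  filter_upwards [hev] with j hj
  have hw' : ∀ ζ : ℂ, ‖ζ‖ ≤ 1 → x j + ζ • w ∈ U := fun ζ hζ => hsub (hj ζ hζ)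
  have h1 := usc_circInt (hg j).1 (hb j) hw'
  refine ((hg j).2 (x j) w hw').trans (Real.circleAverage_mono
    (f₂ := fun ζ => max (g j (x j + ζ • w)) (G (z + ζ • w))) h1 ?_ fun ζ _ => le_max_left _ _)
  exact intervalIntegrable_iff.2 (h1.def'.sup hGi.def')

theorem lpsh_of_rat {g : ℕ → W → ℝ} {G : W → ℝ} (hU : IsOpen U) (hg : ∀ j, LPsh (g j) U)
    (h : ∀ z ∈ U, RAt g (G z) z) : LPsh G U :=
  ⟨fun z hz => (h z hz).ge_of fun j => (hg j).1 z hz, fun T =>
    psh_of_rat hU (fun j => (hg j).2 T) (fun _ _ _ => le_lg _ _) fun z hz =>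
      (h z hz).comp_mono (lg_mono T) (lg_cont T).continuousAt⟩

variable [MeasurableSpace W] [BorelSpace W] {μ : Measure W} [μ.IsAddHaarMeasure]

/-- the sub-mean inequality, for lower integrals -/
theorem Z.BP.lint {u : W → ℝ} (h : BP u U) {z : W} {r M : ℝ} (hz : closedBall z r ⊆ U)
    (hM : ∀ y ∈ closedBall z r, u y ≤ M) :
    ∫⁻ y in closedBall z r, ENNReal.ofReal (M - u y) ∂μ ≤
      ENNReal.ofReal (M - u z) * μ (closedBall z r) := by
  have : ProperSpace W := proper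
  have hi := h.intOn (μ := μ) (isCompact_closedBall z r) hz
  have hc : IntegrableOn (fun _ => M) (closedBall z r) μ :=
    integrableOn_const measure_closedBall_lt_top.ne
  rw [← ofReal_integral_eq_lintegral_ofReal (f := fun y => M - u y) (hc.sub hi)
    ((ae_restrict_mem measurableSet_closedBall).mono fun y hy => sub_nonneg.2 (hM y hy)),
    integral_sub hc hi, setIntegral_const, smul_eq_mul,
    ← ENNReal.ofReal_toReal (measure_closedBall_lt_top (μ := μ) (x := z) (r := r)).ne,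
    ← ENNReal.ofReal_mul' ENNReal.toReal_nonneg, ← measureReal_def]
  exact ENNReal.ofReal_le_ofReal (by linarith [h.ball_mean (μ := μ) hz])

/-- `L - log x`, with the value `∞` at `x = 0` -/
def nl (L x : ℝ) : ℝ≥0∞ := ⨆ T : ℕ, ENNReal.ofReal (L - lg T x)

theorem le_nl (L : ℝ) {x : ℝ} (hx : 0 < x) : ENNReal.ofReal (L - Real.log x) ≤ nl L x := by
  obtain ⟨T, hT⟩ := exists_nat_ge (-Real.log x)
  refine le_iSup_of_le T (ENNReal.ofReal_le_ofReal (sub_le_sub_left
    (lg_le_iff.2 ⟨(Real.exp_log hx).ge, by linarith⟩) L))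

theorem pos_of_nl {L x : ℝ} (hx : 0 ≤ x) (h : nl L x < ∞) : 0 < x := by
  rcases hx.eq_or_lt with rfl | hx
  · exfalso
    obtain ⟨T, hT⟩ := exists_nat_gt ((nl L 0).toReal - L)
    have h1 : ENNReal.ofReal (L - lg T 0) ≤ nl L 0 := le_iSup_of_le T le_rfl
    rw [ENNReal.ofReal_le_iff_le_toReal h.ne] at h1
    have h2 : lg T 0 ≤ -T := lg_le_iff.2 ⟨(Real.exp_pos _).le, le_rfl⟩
    linarith
  · exact hx

omit [FiniteDimensional ℂ W] [μ.IsAddHaarMeasure] in
theorem LPsh.aemeas_nl (h : LPsh P U) (hU : IsOpen U) {K : Set W} (hK : MeasurableSet K)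
    (hKU : K ⊆ U) (L : ℝ) (T : ℕ) :
    AEMeasurable (fun y => ENNReal.ofReal (L - lg T (P y))) (μ.restrict K) :=
  (aemeasurable_const.sub (usc_aemeas hU (h.2 T).1 hK hKU μ)).ennreal_ofReal

/-- integrability of `log P` on a ball, if `P` does not vanish at the centre -/
theorem LPsh.lint_nl (h : LPsh P U) (hU : IsOpen U) {z : W} {r L : ℝ} (hz : closedBall z r ⊆ U)
    (hL : 0 ≤ L) (hM : ∀ y ∈ closedBall z r, P y ≤ Real.exp L) (h0 : 0 < P z) :
    ∫⁻ y in closedBall z r, nl L (P y) ∂μ ≤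
      ENNReal.ofReal (L - Real.log (P z)) * μ (closedBall z r) := by
  unfold nl
  rw [lintegral_iSup' (h.aemeas_nl hU measurableSet_closedBall hz L)
    (Eventually.of_forall fun y T T' hT => ENNReal.ofReal_le_ofReal
      (sub_le_sub_left (lg_anti (Nat.cast_le.2 hT) _) L))]
  refine iSup_le fun T => ((h.bp hU T).lint hz fun y hy => lg_le_iff.2 ⟨hM y hy, ?_⟩).trans ?_
  · have : (0 : ℝ) ≤ T := Nat.cast_nonneg T
    linarith
  · exact mul_le_mul_left (ENNReal.ofReal_le_ofReal (sub_le_sub_left (log_le_lg _ h0) L)) _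

theorem LPsh.ae_pos_ball (h : LPsh P U) (hU : IsOpen U) {z : W} {r : ℝ} (hz : closedBall z r ⊆ U)
    (h0 : 0 < P z) : ∀ᵐ y ∂μ, y ∈ closedBall z r → 0 < P y := by
  have : ProperSpace W := proper
  obtain ⟨B, hB⟩ := ((lpsh_usc h).mono hz).bddAbove_of_isCompact (isCompact_closedBall z r)
  have h1 := h.lint_nl (μ := μ) hU hz (abs_nonneg B) (fun y hy => (hB ⟨y, hy, rfl⟩).trans
    ((le_abs_self B).trans (by linarith [Real.add_one_le_exp |B|]))) h0
  have h2 := ae_lt_top' (AEMeasurable.iSup (h.aemeas_nl hU measurableSet_closedBall hz |B|))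
    (h1.trans_lt (ENNReal.mul_lt_top ENNReal.ofReal_lt_top measure_closedBall_lt_top)).ne
  rw [ae_restrict_iff' measurableSet_closedBall] at h2
  exact h2.mono fun y hy hy' => pos_of_nl (h.1 y (hz hy')) (hy hy')

omit [NormedSpace ℂ W] [FiniteDimensional ℂ W] [BorelSpace W] in
theorem exists_of_ae {p : W → Prop} {t : Set W} {x : W} (ht : t ∈ 𝓝 x)
    (h : ∀ᵐ y ∂μ, y ∈ t → p y) : ∃ y ∈ t, p y := by
  by_contra hc
  have h1 : ∀ᵐ y ∂μ, y ∉ t := h.mono fun y hy hy' => hc ⟨y, hy', hy hy'⟩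
  exact (Measure.measure_pos_of_mem_nhds μ ht).ne' (measure_eq_zero_iff_ae_notMem.2 h1)

/-- `P` is positive almost everywhere if it does not vanish identically -/
theorem LPsh.ae_pos (h : LPsh P U) (hU : IsOpen U) (hc : IsPreconnected U) {z : W} (hz : z ∈ U)
    (h0 : 0 < P z) : ∀ᵐ y ∂μ, y ∈ U → 0 < P y := by
  have : ProperSpace W := proper
  let S : Set W := {x | ∃ t ∈ 𝓝 x, ∀ᵐ y ∂μ, y ∈ t → 0 < P y}
  have hS : IsOpen S := isOpen_iff_mem_nhds.2 fun x ⟨t, ht, H⟩ =>
    (eventually_mem_nhds_iff.2 ht).mono fun x' hx' => ⟨t, hx', H⟩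
  have hsub : U ⊆ S := by
    refine hc.subset_of_closure_inter_subset hS ?_ ?_
    · obtain ⟨r, hr, hrU⟩ := nhds_basis_closedBall.mem_iff.1 (hU.mem_nhds hz)
      exact ⟨z, hz, _, closedBall_mem_nhds z hr, h.ae_pos_ball hU hrU h0⟩
    · rintro x ⟨hx, hxU⟩
      obtain ⟨r, hr, hrU⟩ := nhds_basis_closedBall.mem_iff.1 (hU.mem_nhds hxU)
      obtain ⟨x', hx', t, ht, H⟩ := mem_closure_iff_nhds.1 hx _
        (ball_mem_nhds x (by positivity : 0 < r / 2))
      obtain ⟨y, hy, hy0⟩ := exists_of_ae (μ := μ) (inter_mem ht (isOpen_ball.mem_nhds hx'))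
        (H.mono fun y hy hy' => hy hy'.1)
      have hd : dist y x < r / 2 := hy.2
      refine ⟨closedBall y (r / 2), closedBall_mem_nhds_of_mem (mem_ball'.2 hd),
        h.ae_pos_ball hU ((closedBall_subset_closedBall' (by linarith)).trans hrU) hy0⟩
  rw [ae_iff]
  refine measure_null_of_locally_null _ fun x hx => ?_
  obtain ⟨t, ht, H⟩ := hsub (by by_contra hx'; exact hx fun h' => (hx' h').elim)
  refine ⟨_, inter_mem (mem_nhdsWithin_of_mem_nhds ht) self_mem_nhdsWithin,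
    measure_mono_null ?_ (ae_iff.1 H)⟩
  exact fun y hy hy' => hy.2 fun _ => hy' hy.1

end Vale.Agent.P284Z
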