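import Vale.Agent.P284Z.F.RL

/-! P284Z, block F: the charts of the covering. -/

open scoped Topology
open Filter Set Metric TopologicalSpace

namespace Vale.Agent.P284Z

open Vale.Agent.P272.K

variable {n : ℕ} {Γ E : Type} [Group Γ] [TopologicalSpace E] [MulAction Γ E]

namespace Cov
variable (C : Cov n Γ E)

/-- the deck transformation -/
def deck (γ : Γ) : E ≃ₜ E where
  toFun y := γ • y
  invFun y := γ⁻¹ • y
  left_inv y := inv_smul_smul γ y
  right_inv y := smul_inv_smul γ y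
  continuous_toFun := C.cont γ
  continuous_invFun := C.cont γ⁻¹

include C in
theorem map_deck (γ : Γ) (y : E) : map (fun x : E => γ • x) (𝓝 y) = 𝓝 (γ • y) :=
  (C.deck γ).map_nhds_eq y

theorem fB_open (k : ℝ) (a : C.I) : IsOpen (C.B k a) := isOpen_ball

theorem fB_mono {k k' : ℝ} (h : k ≤ k') (a : C.I) : C.B k a ⊆ C.B k' a :=
  ball_subset_ball (mul_le_mul_of_nonneg_right h (C.r_pos a).le)

theorem fpt_smul (γ g : Γ) (a : C.I) (z : Cm n) : γ • C.pt g a z = C.pt (γ * g) a z :=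
  (mul_smul γ g _).symm

theorem fpt_eq (γ : Γ) (a : C.I) (z : Cm n) : C.pt γ a z = γ • C.pt 1 a z := by
  rw [fpt_smul, mul_one]

theorem map_pt (γ : Γ) (a : C.I) {z : Cm n} (hz : z ∈ C.B 4 a) :
    map (C.pt γ a) (𝓝 z) = 𝓝 (C.pt γ a z) := by
  have h1 : map (C.e a).symm (𝓝 z) = 𝓝 ((C.e a).symm z) :=
    (C.e a).symm.map_nhds_eq (show z ∈ (C.e a).target by rw [C.tgt]; exact hz)
  have h2 : C.pt γ a = (fun x : E => γ • x) ∘ (C.e a).symm := rfl
  rw [h2, ← map_map, h1, C.map_deck]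
  rfl

theorem contAt_pt (γ : Γ) (a : C.I) {z : Cm n} (hz : z ∈ C.B 4 a) : ContinuousAt (C.pt γ a) z :=
  (C.map_pt γ a hz).le

theorem map_pt2 (γ γ' : Γ) (a b : C.I) {q : Cm n × Cm n} (hq : q ∈ C.B 4 a ×ˢ C.B 4 b) :
    map (fun q : Cm n × Cm n => (C.pt γ a q.1, C.pt γ' b q.2)) (𝓝 q) =
      𝓝 (C.pt γ a q.1, C.pt γ' b q.2) := by
  obtain ⟨z, z'⟩ := q
  rw [nhds_prod_eq, nhds_prod_eq, ← C.map_pt γ a hq.1, ← C.map_pt γ' b hq.2, prod_map_map_eq]

theorem fcover (y : E) : ∃ γ a, ∃ z ∈ C.B 1 a, y = C.pt γ a z := by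
  obtain ⟨γ, a, z, hz, h⟩ := C.cover y
  exact ⟨γ, a, z, by simpa [B] using hz, h⟩

theorem contAt_exp (A : ℝ) (a : C.I) {z : Cm n} (hz : z ∈ C.B 4 a) :
    ContinuousAt (fun w => A * C.ρ a w) z :=
  continuousAt_const.mul (C.ρ_sm a z hz).continuousAt

include C in
theorem secondCountable [Countable Γ] : SecondCountableTopology E := by
  let U : Γ × C.I → Set E := fun p => (C.deck p.1) '' (C.e p.2).source
  have hU : ∀ p, IsOpen (U p) := fun p => (C.deck p.1).isOpenMap _ (C.e p.2).open_source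
  have hs : ∀ p, SecondCountableTopology (U p) := fun p => by
    have := (C.e p.2).secondCountableTopology_source
    exact ((C.deck p.1).image (C.e p.2).source).symm.secondCountableTopology
  refine secondCountableTopology_of_countable_cover hU (eq_univ_of_forall fun y => ?_)
  obtain ⟨γ, a, z, hz, h⟩ := C.fcover y
  refine mem_iUnion.2 ⟨(γ, a), (C.e a).symm z, (C.e a).map_target ?_, h.symm⟩
  rw [C.tgt]
  exact C.fB_mono (by norm_num) a hz

end Cov

/-- a function which does not vanish identically, and for which the identity principle holds locally,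
does not vanish on any open set -/
theorem not_vanish [PreconnectedSpace E] {G : E → ℝ} {y₀ : E} (h0 : G y₀ ≠ 0)
    (h : ∀ y, (∃ᶠ x in 𝓝 y, ∀ᶠ x' in 𝓝 x, G x' = 0) → ∀ᶠ x' in 𝓝 y, G x' = 0) (y : E) :
    ¬ ∀ᶠ x in 𝓝 y, G x = 0 := by
  intro hy
  have hc : IsClopen {y | ∀ᶠ x in 𝓝 y, G x = 0} :=
    ⟨isClosed_iff_frequently.2 h, isOpen_setOfPred_eventually_nhds⟩
  have := hc.eq_univ ⟨y, hy⟩
  have h1 : y₀ ∈ {y | ∀ᶠ x in 𝓝 y, G x = 0} := this ▸ mem_univ _
  exact h0 h1.self_of_nhds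

end Vale.Agent.P284Z
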