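import Vale.Agent.P284Z.F.Lp

/-! P284Z, block F: convergence in the mean and almost everywhere. -/

open scoped Topology ENNReal NNReal
open Filter Set Metric MeasureTheory

noncomputable section

namespace Vale.Agent.P284Z

open Z

variable {W : Type} [NormedAddCommGroup W] [NormedSpace ℂ W] [FiniteDimensional ℂ W]
  [MeasurableSpace W] [BorelSpace W] {μ : Measure W} [μ.IsAddHaarMeasure] {U : Set W}
  {g : ℕ → W → ℝ} {G : W → ℝ}

theorem loc_L1 (hg : ∀ j, BP (g j) U) (hG : BP G U) (h : ∀ z ∈ U, RAt g (G z) z) {y : W}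
    (hy : y ∈ U) {ε : ℝ} (hε : 0 < ε) : ∃ r > 0, closedBall y r ⊆ U ∧ ∀ᶠ j in atTop,
      ∫⁻ x in closedBall y (4 * r), ENNReal.ofReal |g j x - G x| ∂μ ≤
        ENNReal.ofReal (3 * ε) * (ENNReal.ofReal (5 ^ Module.finrank ℝ W) * μ (closedBall y r)) := by
  obtain ⟨N, hN, H⟩ := (h y hy).nbhd (lt_add_of_pos_right _ hε)
  obtain ⟨R, hR, hsub⟩ := nhds_basis_closedBall.mem_iff.1
    (inter_mem hN (usc_ev hG.opn hG.psh.1 hy (lt_add_of_pos_right _ hε)))
  obtain ⟨x, hx, hlim⟩ := (h y hy).recover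
  have hc : ∀ {z : W} {s : ℝ}, s + dist z y ≤ R → closedBall z s ⊆ closedBall y R :=
    fun h => closedBall_subset_closedBall' h
  have hRU : closedBall y R ⊆ U := fun z hz => (hsub hz).2.1
  refine ⟨R / 6, by positivity, (hc (by rw [dist_self]; linarith)).trans hRU, ?_⟩
  filter_upwards [H, hx.eventually (closedBall_mem_nhds y (by positivity : 0 < R / 6)),
    hlim.eventually (lt_mem_nhds (sub_lt_self _ hε))] with j h1 h2 h3
  have h2' : dist (x j) y ≤ R / 6 := h2
  have s1 : closedBall y (4 * (R / 6)) ⊆ closedBall y R := hc (by rw [dist_self]; linarith)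
  have s2 : closedBall (x j) (5 * (R / 6)) ⊆ closedBall y R := hc (by linarith)
  have s3 : closedBall y (4 * (R / 6)) ⊆ closedBall (x j) (5 * (R / 6)) :=
    closedBall_subset_closedBall' (by rw [dist_comm]; linarith)
  have e1 : μ (closedBall (x j) (5 * (R / 6))) =
      ENNReal.ofReal (5 ^ Module.finrank ℝ W) * μ (closedBall y (R / 6)) := by
    rw [Measure.addHaar_closedBall_mul_of_pos μ _ (by norm_num : (0 : ℝ) < 5),
      Measure.addHaar_closedBall_center μ y]
  have b1 := hG.lint (μ := μ) (s1.trans hRU) (M := G y + ε) fun z hz => (hsub (s1 hz)).2.2.le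
  have b2 := (hg j).lint (μ := μ) (s2.trans hRU) (M := G y + ε)
    fun z hz => (h1 z (hsub (s2 hz)).1).le
  rw [← e1]
  calc ∫⁻ x in closedBall y (4 * (R / 6)), ENNReal.ofReal |g j x - G x| ∂μ
      ≤ ∫⁻ x in closedBall y (4 * (R / 6)),
          (ENNReal.ofReal (G y + ε - G x) + ENNReal.ofReal (G y + ε - g j x)) ∂μ := by
        refine setLIntegral_mono' measurableSet_closedBall fun z hz => ?_
        have q1 := (hsub (s1 hz)).2.2
        have q2 := h1 z (hsub (s1 hz)).1
        rw [← ENNReal.ofReal_add (by linarith) (by linarith)]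
        exact ENNReal.ofReal_le_ofReal (abs_le.2 ⟨by linarith, by linarith⟩)
    _ = ∫⁻ x in closedBall y (4 * (R / 6)), ENNReal.ofReal (G y + ε - G x) ∂μ +
          ∫⁻ x in closedBall y (4 * (R / 6)), ENNReal.ofReal (G y + ε - g j x) ∂μ :=
        lintegral_add_left' (aemeasurable_const.sub (usc_aemeas hG.opn hG.psh.1
          measurableSet_closedBall (s1.trans hRU) μ)).ennreal_ofReal _
    _ ≤ ENNReal.ofReal ε * μ (closedBall (x j) (5 * (R / 6))) +
          ENNReal.ofReal (2 * ε) * μ (closedBall (x j) (5 * (R / 6))) := by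
        refine add_le_add (b1.trans ?_) ((lintegral_mono_set s3).trans (b2.trans ?_))
        · rw [add_sub_cancel_left]
          exact mul_le_mul_right (measure_mono s3) _
        · exact mul_le_mul_left (ENNReal.ofReal_le_ofReal (by linarith)) _
    _ = ENNReal.ofReal (3 * ε) * μ (closedBall (x j) (5 * (R / 6))) := by
        rw [← add_mul, ← ENNReal.ofReal_add hε.le (by positivity)]
        congr 2
        ring

/-- convergence in the mean on compact sets -/
theorem tendsto_L1 (hg : ∀ j, BP (g j) U) (hG : BP G U) (h : ∀ z ∈ U, RAt g (G z) z)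
    (hμ : μ U ≠ ∞) {K : Set W} (hK : IsCompact K) (hKU : K ⊆ U) :
    Tendsto (fun j => ∫⁻ x in K, ENNReal.ofReal |g j x - G x| ∂μ) atTop (𝓝 0) := by
  refine ENNReal.tendsto_nhds_zero.2 fun η hη => ?_
  set c : ℝ≥0∞ := ENNReal.ofReal (5 ^ Module.finrank ℝ W) with hc
  obtain ⟨ε, hε, hεη⟩ := ENNReal.exists_nnreal_pos_mul_lt
    (ENNReal.mul_ne_top (ENNReal.ofReal_ne_top (r := 5 ^ Module.finrank ℝ W)) hμ) hη.ne'
  choose! r hr hrU hev using fun y (hy : y ∈ K) =>
    loc_L1 (μ := μ) hg hG h (hKU hy) (ε := ε / 3) (by positivity)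
  obtain ⟨t, htK, ht⟩ := hK.elim_nhds_subcover (fun y => closedBall y (r y))
    fun y hy => closedBall_mem_nhds y (hr y hy)
  obtain ⟨R, hR⟩ := (t.finite_toSet.image r).bddAbove
  obtain ⟨u, hut, hd, hcov⟩ := Vitali.exists_disjoint_subfamily_covering_enlargement_closedBall
    (t : Set W) id r R (fun a ha => hR ⟨a, ha, rfl⟩) 4 (by norm_num)
  have hu : u.Finite := t.finite_toSet.subset hut
  have := hu.countable.to_subtype
  filter_upwards [(eventually_all_finite hu).2 fun y hy => hev y (htK y (hut hy))] with j hj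
  have hsub : K ⊆ ⋃ y : u, closedBall y.1 (4 * r y) := by
    intro x hx
    obtain ⟨a, ha, hxa⟩ := mem_iUnion₂.1 (ht hx)
    obtain ⟨b, hb, hab⟩ := hcov a ha
    exact mem_iUnion.2 ⟨⟨b, hb⟩, hab hxa⟩
  have e3 : ENNReal.ofReal (3 * ((ε : ℝ) / 3)) = ε := by
    rw [mul_div_cancel₀ _ (by norm_num), ENNReal.ofReal_coe_nnreal]
  calc ∫⁻ x in K, ENNReal.ofReal |g j x - G x| ∂μ
      ≤ ∑' y : u, ∫⁻ x in closedBall y.1 (4 * r y), ENNReal.ofReal |g j x - G x| ∂μ :=
        (lintegral_mono_set hsub).trans (lintegral_iUnion_le _ _)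
    _ ≤ ∑' y : u, ε * (c * μ (closedBall y.1 (r y))) :=
        ENNReal.tsum_le_tsum fun y => e3 ▸ hj y.1 y.2
    _ = ε * (c * μ (⋃ y ∈ u, closedBall y (r y))) := by
        rw [ENNReal.tsum_mul_left, ENNReal.tsum_mul_left,
          measure_biUnion (f := fun y => closedBall y (r y)) hu.countable hd
            fun _ _ => measurableSet_closedBall]
    _ ≤ ε * (c * μ U) := by
        gcongr
        exact iUnion₂_subset fun y hy => hrU y (htK y (hut hy))
    _ ≤ η := hεη.le

/-- convergence almost everywhere along a subsequence -/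
theorem exists_ae_sub {ι : Type} [Finite ι] {U : ι → Set W} {g : ι → ℕ → W → ℝ} {G : ι → W → ℝ}
    (hg : ∀ i j, BP (g i j) (U i)) (hG : ∀ i, BP (G i) (U i))
    (h : ∀ i, ∀ z ∈ U i, RAt (g i) (G i z) z) (hμ : ∀ i, μ (U i) ≠ ∞) :
    ∃ φ : ℕ → ℕ, StrictMono φ ∧ ∀ i, ∀ᵐ z ∂μ, z ∈ U i →
      Tendsto (fun k => g i (φ k) z) atTop (𝓝 (G i z)) := by
  have : ProperSpace W := proper
  choose S hS1 hS2 hS3 hS4 using fun i => (hG i).opn.exists_iUnion_isClosed
  let K : ι → ℕ → Set W := fun i k => closedBall 0 k ∩ S i k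
  have hK : ∀ i k, IsCompact (K i k) := fun i k => (isCompact_closedBall _ _).inter_right (hS1 i k)
  have hKU : ∀ i k, K i k ⊆ U i := fun i k => inter_subset_right.trans (hS2 i k)
  obtain ⟨φ, hφ, H⟩ := extraction_forall_of_eventually (P := fun k j => ∀ i,
      ∫⁻ x in K i k, ENNReal.ofReal |g i j x - G i x| ∂μ ≤ 2⁻¹ ^ k) fun k =>
    eventually_all.2 fun i => ENNReal.tendsto_nhds_zero.1
      (tendsto_L1 (hg i) (hG i) (h i) (hμ i) (hK i k) (hKU i k)) _
      (ENNReal.pow_pos (by simp) k)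
  refine ⟨φ, hφ, fun i => ?_⟩
  let f : ℕ → W → ℝ≥0∞ := fun k =>
    (K i k).indicator fun x => ENNReal.ofReal |g i (φ k) x - G i x|
  have hf : ∀ k, AEMeasurable (f k) μ := fun k =>
    (aemeasurable_indicator_iff (hK i k).measurableSet).2
      ((continuous_abs.measurable.comp_aemeasurable
        ((usc_aemeas (hG i).opn (hg i _).psh.1 (hK i k).measurableSet (hKU i k) μ).sub
        (usc_aemeas (hG i).opn (hG i).psh.1 (hK i k).measurableSet (hKU i k) μ))).ennreal_ofReal)
  have hfin : ∫⁻ x, ∑' k, f k x ∂μ ≠ ∞ := by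
    rw [lintegral_tsum hf]
    refine ne_top_of_le_ne_top ?_ (ENNReal.tsum_le_tsum (g := fun k => 2⁻¹ ^ k) fun k => ?_)
    · rw [ENNReal.tsum_geometric]
      simp
    · rw [lintegral_indicator (hK i k).measurableSet]
      exact H k i
  filter_upwards [ae_lt_top' (AEMeasurable.tsum hf) hfin] with z hz hzU
  have h1 := ENNReal.tendsto_atTop_zero_of_tsum_ne_top hz.ne
  obtain ⟨k₀, hk₀⟩ := mem_iUnion.1 ((hS3 i).symm ▸ hzU : z ∈ ⋃ k, S i k)
  have h2 : ∀ᶠ k in atTop, z ∈ K i k := by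
    filter_upwards [eventually_ge_atTop k₀, tendsto_natCast_atTop_atTop.eventually
      (eventually_ge_atTop ‖z‖)] with k q1 q2
    exact ⟨mem_closedBall_zero_iff.2 q2, hS4 i q1 hk₀⟩
  have h3 : Tendsto (fun k => ENNReal.ofReal |g i (φ k) z - G i z|) atTop (𝓝 0) :=
    h1.congr' (h2.mono fun k hk => indicator_of_mem hk _)
  have h4 := (ENNReal.tendsto_toReal ENNReal.zero_ne_top).comp h3
  rw [tendsto_iff_norm_sub_tendsto_zero]
  refine h4.congr fun k => ?_
  simp only [Function.comp, ENNReal.toReal_ofReal (abs_nonneg _), Real.norm_eq_abs]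

end Vale.Agent.P284Z
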