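import Mathlib
import Vale.Agent.P284Z.Defs

/-! P284Z, block F: relaxed limits, the topological part. -/

open scoped Topology
open Filter Set Metric TopologicalSpace

namespace Vale.Agent.P284Z

/-- the upper limit of `a` is at most `A` -/
def Ub (a : ℕ → ℝ) (A : ℝ) : Prop := ∀ t, A < t → ∀ᶠ j in atTop, a j < t

namespace Ub
variable {a b : ℕ → ℝ} {A B : ℝ}

theorem of_tendsto (h : Tendsto a atTop (𝓝 A)) : Ub a A := fun _ ht => h.eventually (gt_mem_nhds ht)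

theorem mono (h : Ub b B) (hab : ∀ᶠ j in atTop, a j ≤ b j) : Ub a B := fun t ht => by
  filter_upwards [h t ht, hab] with j h1 h2 using h2.trans_lt h1

theorem le (ha : Tendsto a atTop (𝓝 A)) (hb : Ub b B) (h : ∀ᶠ j in atTop, a j ≤ b j) : A ≤ B := by
  refine le_of_forall_gt_imp_ge_of_dense fun t ht => le_of_tendsto ha ?_
  filter_upwards [hb.mono h t ht] with j hj using hj.le

theorem tendsto_max (h : Ub a A) : Tendsto (fun j => max (a j) A) atTop (𝓝 A) := by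
  refine tendsto_order.2 ⟨fun t ht => Eventually.of_forall fun j => ht.trans_le (le_max_right _ _),
    fun t ht => ?_⟩
  filter_upwards [h t ht] with j hj using max_lt hj ht

theorem mul (ha : Ub a A) (hb : Ub b B) (ha0 : ∀ j, 0 ≤ a j) (hb0 : ∀ j, 0 ≤ b j) :
    Ub (fun j => a j * b j) (A * B) :=
  (of_tendsto (ha.tendsto_max.mul hb.tendsto_max)).mono (Eventually.of_forall fun j =>
    mul_le_mul (le_max_left _ _) (le_max_left _ _) (hb0 j) ((ha0 j).trans (le_max_left _ _)))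

theorem max (ha : Ub a A) (hb : Ub b B) : Ub (fun j => max (a j) (b j)) (max A B) := fun t ht => by
  filter_upwards [ha t (max_lt_iff.1 ht).1, hb t (max_lt_iff.1 ht).2] with j h1 h2 using
    max_lt h1 h2

end Ub

/-- a slowly increasing index -/
theorem exists_slow {p : ℕ → ℕ → Prop} (h : ∀ k, ∀ᶠ j in atTop, p k j) :
    ∃ κ : ℕ → ℕ, Tendsto κ atTop atTop ∧ ∀ᶠ j in atTop, p (κ j) j := by
  classical
  have h' : ∀ k, ∀ᶠ j in atTop, ∀ k' ≤ k, p k' j := fun k => by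
    have := (eventually_all_finite (finite_le_nat k)).2 fun k' _ => h k'
    exact this
  refine ⟨fun j => Nat.findGreatest (fun k => ∀ k' ≤ k, p k' j) j, ?_, ?_⟩
  · refine tendsto_atTop.2 fun k => ?_
    filter_upwards [h' k, eventually_ge_atTop k] with j h1 h2 using Nat.le_findGreatest h2 h1
  · filter_upwards [h' 0] with j hj
    exact Nat.findGreatest_spec (P := fun k => ∀ k' ≤ k, p k' j) (Nat.zero_le j) hj _ le_rfl

variable {X Y : Type} [TopologicalSpace X] [TopologicalSpace Y]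

/-- `c` is the relaxed limit of `g` at `y` -/
def RAt (g : ℕ → Y → ℝ) (c : ℝ) (y : Y) : Prop :=
  ∀ t, (c < t → ∀ᶠ q : ℕ × Y in atTop ×ˢ 𝓝 y, g q.1 q.2 < t) ∧
    (t < c → ∀ U ∈ 𝓝 y, ∀ᶠ j in atTop, ∃ y' ∈ U, t < g j y')

theorem RLim.rat {g : ℕ → Y → ℝ} {G : Y → ℝ} (h : RLim g G) (y : Y) : RAt g (G y) y := h y

namespace RAt
variable {g g' : ℕ → Y → ℝ} {c c' : ℝ} {y : Y}

theorem sub (h : RAt g c y) {φ : ℕ → ℕ} (hφ : Tendsto φ atTop atTop) :
    RAt (fun j => g (φ j)) c y := fun t =>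
  ⟨fun ht => (hφ.prodMap tendsto_id).eventually ((h t).1 ht),
    fun ht U hU => hφ.eventually ((h t).2 ht U hU)⟩

theorem ub (h : RAt g c y) {x : ℕ → Y} (hx : Tendsto x atTop (𝓝 y)) :
    Ub (fun j => g j (x j)) c := fun t ht => (tendsto_id.prodMk hx).eventually ((h t).1 ht)

theorem nbhd (h : RAt g c y) {t : ℝ} (ht : c < t) :
    ∃ U ∈ 𝓝 y, ∀ᶠ j in atTop, ∀ x ∈ U, g j x < t := by
  obtain ⟨pa, ha, pb, hb, H⟩ := eventually_prod_iff.1 ((h t).1 ht)
  exact ⟨{x | pb x}, hb, ha.mono fun j hj x hx => H hj hx⟩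

theorem recover [FirstCountableTopology Y] (h : RAt g c y) :
    ∃ x : ℕ → Y, Tendsto x atTop (𝓝 y) ∧ Tendsto (fun j => g j (x j)) atTop (𝓝 c) := by
  classical
  obtain ⟨U, hU⟩ := (𝓝 y).exists_antitone_basis
  obtain ⟨κ, hκ, hp⟩ := exists_slow
    (p := fun k j => ∃ x ∈ U k, c - 1 / ((k : ℝ) + 1) < g j x) fun k =>
      (h _).2 (by have := Nat.one_div_pos_of_nat (α := ℝ) (n := k); linarith) _ (hU.mem k)
  let x : ℕ → Y := fun j =>
    if hj : ∃ x ∈ U (κ j), c - 1 / ((κ j : ℝ) + 1) < g j x then hj.choose else y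
  have hx : ∀ᶠ j in atTop, x j ∈ U (κ j) ∧ c - 1 / ((κ j : ℝ) + 1) < g j (x j) := by
    filter_upwards [hp] with j hj
    simp only [x, dif_pos hj]
    exact hj.choose_spec
  have hxy : Tendsto x atTop (𝓝 y) := by
    refine hU.1.tendsto_right_iff.2 fun k _ => ?_
    filter_upwards [hx, hκ.eventually (eventually_ge_atTop k)] with j h1 h2 using hU.2 h2 h1.1
  refine ⟨x, hxy, tendsto_order.2 ⟨fun t ht => ?_, h.ub hxy⟩⟩
  have h1 : Tendsto (fun j => c - 1 / ((κ j : ℝ) + 1)) atTop (𝓝 (c - 0)) :=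
    tendsto_const_nhds.sub (tendsto_one_div_add_atTop_nhds_zero_nat.comp hκ)
  rw [sub_zero] at h1
  filter_upwards [hx, h1.eventually (lt_mem_nhds ht)] with j h2 h3 using h3.trans h2.2

theorem le_of_nbhd (h : RAt g c y) {t : ℝ} {U : Set Y} (hU : U ∈ 𝓝 y)
    (ht : ∀ᶠ j in atTop, ∀ x ∈ U, g j x ≤ t) : c ≤ t := by
  by_contra hc
  obtain ⟨j, ⟨x, hx, h1⟩, h2⟩ := (((h t).2 (not_le.1 hc) U hU).and ht).exists
  exact absurd (h2 x hx) (not_le.2 h1)

theorem ge_of (h : RAt g c y) {t : ℝ} (ht : ∀ j, t ≤ g j y) : t ≤ c :=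
  Ub.le tendsto_const_nhds (h.ub tendsto_const_nhds) (Eventually.of_forall ht)

theorem unique (h : RAt g c y) (h' : RAt g c' y) : c = c' := by
  have key : ∀ {c c' : ℝ}, RAt g c y → RAt g c' y → c ≤ c' := fun h h' =>
    le_of_forall_gt_imp_ge_of_dense fun t ht => by
      obtain ⟨U, hU, H⟩ := h'.nbhd ht
      exact h.le_of_nbhd hU (H.mono fun j hj x hx => (hj x hx).le)
  exact le_antisymm (key h h') (key h' h)

theorem map {f : X → Y} {x : X} (hf : Filter.map f (𝓝 x) = 𝓝 (f x)) (h : RAt g c (f x)) :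
    RAt (fun j z => g j (f z)) c x := by
  intro t
  refine ⟨fun ht => (tendsto_id.prodMap hf.le).eventually ((h t).1 ht), fun ht U hU => ?_⟩
  filter_upwards [(h t).2 ht (f '' U) (hf ▸ image_mem_map hU)] with j hj
  obtain ⟨_, ⟨z, hz, rfl⟩, h1⟩ := hj
  exact ⟨z, hz, h1⟩

theorem mul_cont (h : RAt g c y) {w : Y → ℝ} (hw : ContinuousAt w y) (hp : 0 < w y) :
    RAt (fun j z => g j z * w z) (c * w y) y := by
  intro t
  have hcont : ContinuousAt (fun s : ℝ => s * w y) c := by fun_prop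
  refine ⟨fun ht => ?_, fun ht U hU => ?_⟩
  · obtain ⟨s, hs1, hs2⟩ := ((hcont.eventually (gt_mem_nhds ht)).filter_mono
      (nhdsWithin_le_nhds (s := Ioi c))).and self_mem_nhdsWithin |>.exists
    have h1 : ∀ᶠ z in 𝓝 y, s * w z < t :=
      (continuousAt_const.mul hw).eventually (gt_mem_nhds hs1)
    filter_upwards [(h s).1 hs2, tendsto_snd.eventually h1,
      tendsto_snd.eventually (hw.eventually (lt_mem_nhds hp))] with q q1 q2 q3
    exact (mul_le_mul_of_nonneg_right q1.le q3.le).trans_lt q2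
  · obtain ⟨s, hs1, hs2⟩ := ((hcont.eventually (lt_mem_nhds ht)).filter_mono
      (nhdsWithin_le_nhds (s := Iio c))).and self_mem_nhdsWithin |>.exists
    have h1 : ∀ᶠ z in 𝓝 y, t < s * w z :=
      (continuousAt_const.mul hw).eventually (lt_mem_nhds hs1)
    filter_upwards [(h s).2 hs2 _ (inter_mem hU (h1.and (hw.eventually (lt_mem_nhds hp))))]
      with j hj
    obtain ⟨z, ⟨hz, q1, q2⟩, q3⟩ := hj
    exact ⟨z, hz, q1.trans_le (mul_le_mul_of_nonneg_right q3.le q2.le)⟩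

end RAt

theorem RLim.sub {g : ℕ → Y → ℝ} {G : Y → ℝ} (h : RLim g G) {φ : ℕ → ℕ}
    (hφ : Tendsto φ atTop atTop) : RLim (fun j => g (φ j)) G := fun y => (h.rat y).sub hφ

/-- the relaxed limit is upper semicontinuous -/
theorem usc_of_rat {g : ℕ → Y → ℝ} {G : Y → ℝ} {U : Set Y} (h : ∀ y ∈ U, RAt g (G y) y) :
    UpperSemicontinuousOn G U := by
  intro y hy t ht
  obtain ⟨s, hs1, hs2⟩ := exists_between ht
  obtain ⟨N, hN, H⟩ := (h y hy).nbhd hs1
  filter_upwards [mem_nhdsWithin_of_mem_nhds (eventually_mem_nhds_iff.2 hN), self_mem_nhdsWithin]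
    with z hz hzU
  exact ((h z hzU).le_of_nbhd hz (H.mono fun j hj x hx => (hj x hx).le)).trans_lt hs2

theorem RLim.usc {g : ℕ → Y → ℝ} {G : Y → ℝ} (h : RLim g G) : UpperSemicontinuous G :=
  upperSemicontinuousOn_univ_iff.1 (usc_of_rat fun y _ => h.rat y)

/-- the upper bound of Hartogs: on a compact set `g j < w` for large `j`, if `w` is continuous and
`G < w` -/
theorem hartogs_of_rat {g : ℕ → Y → ℝ} {G w : Y → ℝ} {K : Set Y} (hK : IsCompact K)
    (h : ∀ y ∈ K, RAt g (G y) y) (hw : ContinuousOn w K) (hG : ∀ y ∈ K, G y < w y) :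
    ∀ᶠ j in atTop, ∀ y ∈ K, g j y < w y := by
  refine hK.induction_on (p := fun S => ∀ᶠ j in atTop, ∀ y ∈ S, g j y < w y) ?_ ?_ ?_ ?_
  · exact Eventually.of_forall fun _ _ hy => hy.elim
  · exact fun s t hst H => H.mono fun j hj y hy => hj y (hst hy)
  · intro s t h1 h2
    filter_upwards [h1, h2] with j q1 q2 y hy using hy.elim (q1 y) (q2 y)
  · intro y hy
    obtain ⟨s, hs1, hs2⟩ := exists_between (hG y hy)
    obtain ⟨N, hN, H⟩ := (h y hy).nbhd hs1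
    refine ⟨_, inter_mem (mem_nhdsWithin_of_mem_nhds hN) ((hw y hy).eventually (lt_mem_nhds hs2)),
      H.mono fun j hj x hx => (hj x hx.1).trans hx.2⟩

/-- uniform upper bound on a compact set -/
theorem bdd_of_rat {g : ℕ → Y → ℝ} {G : Y → ℝ} {K : Set Y} (hK : IsCompact K)
    (h : ∀ y ∈ K, RAt g (G y) y) :
    ∃ L : ℝ, (∀ y ∈ K, G y ≤ L) ∧ ∀ᶠ j in atTop, ∀ y ∈ K, g j y ≤ L := by
  obtain ⟨L, hL⟩ := (usc_of_rat h).bddAbove_of_isCompact hK
  have hL' : ∀ y ∈ K, G y < L + 1 := fun y hy => (hL ⟨y, hy, rfl⟩).trans_lt (lt_add_one L)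
  exact ⟨L + 1, fun y hy => (hL' y hy).le,
    (hartogs_of_rat hK h continuousOn_const hL').mono fun j hj y hy => (hj y hy).le⟩

/-- extraction of a subsequence along which the relaxed limits exist -/
theorem exists_rlim {ι : Type} [SecondCountableTopology Y] [Countable ι] (g : ι → ℕ → Y → ℝ)
    {M : ℝ} (hM0 : 0 ≤ M) (h0 : ∀ i j y, 0 ≤ g i j y) (hM : ∀ i j y, g i j y ≤ M) :
    ∃ φ : ℕ → ℕ, StrictMono φ ∧ ∀ i, ∃ G, RLim (fun j => g i (φ j)) G := by
  let s : ℕ → ι × countableBasis Y → ℝ := fun j p => sSup (g p.1 j '' p.2)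
  have hbd : ∀ i j (V : Set Y), BddAbove (g i j '' V) := fun i j V =>
    ⟨M, by rintro _ ⟨y, -, rfl⟩; exact hM i j y⟩
  have hs : ∀ j, s j ∈ Set.pi univ fun _ => Icc 0 M := fun j p _ =>
    ⟨Real.sSup_nonneg (by rintro _ ⟨y, -, rfl⟩; exact h0 _ _ _),
      Real.sSup_le (by rintro _ ⟨y, -, rfl⟩; exact hM _ _ _) hM0⟩
  obtain ⟨σ, hσ, φ, hφ, hlim⟩ := (isCompact_univ_pi fun _ => isCompact_Icc).tendsto_subseq hs
  have hl : ∀ p, Tendsto (fun j => s (φ j) p) atTop (𝓝 (σ p)) := tendsto_pi_nhds.1 hlim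
  refine ⟨φ, hφ, fun i => ⟨fun y => sInf ((fun V => σ (i, V)) '' {V | y ∈ V.1}), fun y t => ?_⟩⟩
  have hB := isBasis_countableBasis Y
  refine ⟨fun ht => ?_, fun ht U hU => ?_⟩
  · obtain ⟨V, hV, hyV, -⟩ := hB.mem_nhds_iff.1 (univ_mem (f := 𝓝 y))
    have hne : ((fun V => σ (i, V)) '' {V : countableBasis Y | y ∈ V.1}).Nonempty :=
      ⟨_, ⟨V, hV⟩, hyV, rfl⟩
    obtain ⟨_, ⟨V', hV', rfl⟩, h1⟩ := exists_lt_of_csInf_lt hne ht
    filter_upwards [((hl (i, V')).eventually (gt_mem_nhds h1)).prod_mk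
      ((hB.isOpen V'.2).mem_nhds hV')] with q hq
    exact (le_csSup (hbd i (φ q.1) V'.1) ⟨q.2, hq.2, rfl⟩).trans_lt hq.1
  · obtain ⟨V, hV, hyV, hVU⟩ := hB.mem_nhds_iff.1 hU
    have h1 : t < σ (i, ⟨V, hV⟩) := ht.trans_le (csInf_le
      ⟨0, by rintro _ ⟨V', -, rfl⟩; exact (hσ _ trivial).1⟩ ⟨⟨V, hV⟩, hyV, rfl⟩)
    filter_upwards [(hl (i, ⟨V, hV⟩)).eventually (lt_mem_nhds h1)] with j hj
    obtain ⟨_, ⟨x, hx, rfl⟩, h2⟩ := exists_lt_of_lt_csSup
      (s := g i (φ j) '' V) ⟨_, y, hyV, rfl⟩ hj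
    exact ⟨x, hVU hx, h2⟩

end Vale.Agent.P284Z
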